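import Vale.Agent.Lib.P249.Sample

open scoped Classical
open Finset

namespace P249

variable {n M : ℕ}

/-- The `p`-th power of the `l_p` distance. -/
noncomputable def DD (p : ℝ) (x : Fin n → Fin M → ℝ) (u v : Fin n) : ℝ := ∑ k, |x u k - x v k| ^ p

lemma DD_nonneg (p : ℝ) (x : Fin n → Fin M → ℝ) (u v : Fin n) : 0 ≤ DD p x u v :=
  Finset.sum_nonneg (fun _ _ => Real.rpow_nonneg (abs_nonneg _) _)

lemma DD_symm (p : ℝ) (x : Fin n → Fin M → ℝ) (u v : Fin n) : DD p x u v = DD p x v u := by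
  unfold DD
  exact Finset.sum_congr rfl (fun k _ => by rw [abs_sub_comm])

lemma term_le_DD (p : ℝ) (x : Fin n → Fin M → ℝ) (u v : Fin n) (k : Fin M) :
    |x u k - x v k| ^ p ≤ DD p x u v :=
  Finset.single_le_sum (f := fun k => |x u k - x v k| ^ p)
    (fun _ _ => Real.rpow_nonneg (abs_nonneg _) _) (Finset.mem_univ k)

lemma eq_of_rpow_le_zero {p a b : ℝ} (hp : 1 ≤ p) (h : |a - b| ^ p ≤ 0) : a = b := by
  have h0 : |a - b| ^ p = 0 := le_antisymm h (Real.rpow_nonneg (abs_nonneg _) _)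
  have h1 : |a - b| = 0 := (Real.rpow_eq_zero (abs_nonneg _) (by linarith)).mp h0
  exact sub_eq_zero.mp (abs_eq_zero.mp h1)

/-- The sensitivity budget of a coordinate. -/
noncomputable def QQ (p : ℝ) (x : Fin n → Fin M → ℝ) (G : Finset (Fin n × Fin n)) (k : Fin M) : ℝ :=
  ∑ e ∈ G, |x e.1 k - x e.2 k| ^ p / DD p x e.1 e.2

lemma QQ_nonneg (p : ℝ) (x : Fin n → Fin M → ℝ) (G : Finset (Fin n × Fin n)) (k : Fin M) :
    0 ≤ QQ p x G k :=
  Finset.sum_nonneg (fun _ _ => div_nonneg (Real.rpow_nonneg (abs_nonneg _) _) (DD_nonneg _ _ _ _))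

lemma sum_QQ_le (p : ℝ) (x : Fin n → Fin M → ℝ) (G : Finset (Fin n × Fin n)) :
    ∑ k, QQ p x G k ≤ (G.card : ℝ) := by
  unfold QQ
  rw [Finset.sum_comm]
  calc ∑ e ∈ G, ∑ k, |x e.1 k - x e.2 k| ^ p / DD p x e.1 e.2
      ≤ ∑ _e ∈ G, (1 : ℝ) := by
        apply Finset.sum_le_sum
        intro e _
        rw [← Finset.sum_div]
        exact div_self_le_one _
    _ = (G.card : ℝ) := by simp

lemma edge_bound {p : ℝ} (x : Fin n → Fin M → ℝ) {G : Finset (Fin n × Fin n)} (k : Fin M)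
    {a b : Fin n} (hab : (a, b) ∈ G) :
    |x a k - x b k| ^ p ≤ QQ p x G k * DD p x a b := by
  have hD := DD_nonneg p x a b
  rcases hD.eq_or_lt with h0 | hpos
  · rw [← h0, mul_zero]
    have := term_le_DD p x a b k
    rwa [← h0] at this
  · have h1 : |x a k - x b k| ^ p / DD p x a b ≤ QQ p x G k :=
      Finset.single_le_sum
        (f := fun e : Fin n × Fin n => |x e.1 k - x e.2 k| ^ p / DD p x e.1 e.2)
        (fun _ _ => div_nonneg (Real.rpow_nonneg (abs_nonneg _) _) (DD_nonneg _ _ _ _)) hab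
    exact (div_le_iff₀ hpos).mp h1

lemma root_bound {p A Q D : ℝ} (hp : 1 ≤ p) (hA : 0 ≤ A) (hQ : 0 ≤ Q) (hD : 0 ≤ D)
    (h : A ^ p ≤ Q * D) : A ≤ Q ^ (1 / p) * D ^ (1 / p) := by
  have hp0 : 0 < p := by linarith
  rw [← Real.mul_rpow hQ hD]
  have h1 : A = (A ^ p) ^ (1 / p) := by
    rw [← Real.rpow_mul hA, mul_one_div_cancel hp0.ne', Real.rpow_one]
  rw [h1]
  exact Real.rpow_le_rpow (Real.rpow_nonneg hA _) h (by positivity)

/-- The key inequality: every coordinate has all its normalized increments controlled by the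
spanner edges. -/
lemma key_bound {p : ℝ} (hp : 1 ≤ p) (x : Fin n → Fin M → ℝ) {G : Finset (Fin n × Fin n)}
    {L : ℝ} (hL : 0 ≤ L)
    (hG : ∀ u v, Span (adj G) (fun a b => (DD p x a b) ^ (1 / p))
      (L * (DD p x u v) ^ (1 / p)) u v) (k : Fin M) (u v : Fin n) :
    |x u k - x v k| ^ p ≤ L ^ p * QQ p x G k * DD p x u v := by
  have hp0 : 0 < p := by linarith
  have hQ := QQ_nonneg p x G k
  set R : ℝ := (QQ p x G k) ^ (1 / p) with hR
  have hR0 : 0 ≤ R := Real.rpow_nonneg hQ _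
  have hspan := hG u v (fun a => x a k) R hR0 (by
    intro a b hab
    rcases hab with h | h
    · exact root_bound hp (abs_nonneg _) hQ (DD_nonneg _ _ _ _) (edge_bound x k h)
    · have := root_bound hp (abs_nonneg _) hQ (DD_nonneg _ _ _ _) (edge_bound (p := p) x k h)
      rw [abs_sub_comm]
      show |x b k - x a k| ≤ R * (DD p x a b) ^ (1 / p)
      rw [DD_symm p x a b]
      exact this)
  have hD := DD_nonneg p x u v
  have hW : 0 ≤ (DD p x u v) ^ (1 / p) := Real.rpow_nonneg hD _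
  have h2 : |x u k - x v k| ^ p ≤ (R * (L * (DD p x u v) ^ (1 / p))) ^ p :=
    Real.rpow_le_rpow (abs_nonneg _) hspan hp0.le
  have h3 : (R * (L * (DD p x u v) ^ (1 / p))) ^ p = L ^ p * QQ p x G k * DD p x u v := by
    rw [Real.mul_rpow hR0 (mul_nonneg hL hW), Real.mul_rpow hL hW, hR,
      ← Real.rpow_mul hQ, ← Real.rpow_mul hD, one_div_mul_cancel hp0.ne', Real.rpow_one,
      Real.rpow_one]
    ring
  rw [h3] at h2
  exact h2

theorem main (p ε : ℝ) (hp : 1 ≤ p) (hε0 : 0 < ε) (hε1 : ε ≤ 1) (n M : ℕ) (hn : 2 ≤ n)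
    (x : Fin n → Fin M → ℝ) :
    ∃ (N : ℕ) (g : Fin n → Fin N → ℝ),
      (N : ℝ) ≤ 1 + 16 * (n : ℝ) * (2 * (Nat.clog 2 (n + 1) : ℝ) + 1) ^ p *
          Real.log (2 * (n : ℝ) ^ 2) / ε ^ 2 ∧
      ∀ u v, (1 - ε) * ∑ k, |x u k - x v k| ^ p ≤ ∑ s, |g u s - g v s| ^ p ∧
        ∑ s, |g u s - g v s| ^ p ≤ (1 + ε) * ∑ k, |x u k - x v k| ^ p := by
  have hp0 : 0 < p := by linarith
  have hnR : (2 : ℝ) ≤ n := by exact_mod_cast hn
  have hlog : 0 < Real.log (2 * (n : ℝ) ^ 2) := Real.log_pos (by nlinarith)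
  set r : ℕ := Nat.clog 2 (n + 1) with hr
  have hcard : Fintype.card (Fin n) < 2 ^ r := by
    have h1 : n + 1 ≤ 2 ^ r := Nat.le_pow_clog (b := 2) (by norm_num) (n + 1)
    simp only [Fintype.card_fin]
    omega
  obtain ⟨G, hGcard, hG⟩ := exists_spanner (fun a b => (DD p x a b) ^ (1 / p))
    (fun a b => Real.rpow_nonneg (DD_nonneg _ _ _ _) _)
    (fun a b => by simp only [DD_symm p x a b]) hcard
  rw [Fintype.card_fin] at hGcard
  set LR : ℝ := 2 * (r : ℝ) + 1 with hLR
  have hLR1 : 1 ≤ LR := by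
    have : (0 : ℝ) ≤ r := Nat.cast_nonneg _
    linarith
  have hLR0 : 0 ≤ LR := by linarith
  have hG' : ∀ u v, Span (adj G) (fun a b => (DD p x a b) ^ (1 / p))
      (LR * (DD p x u v) ^ (1 / p)) u v := by
    intro u v
    have := hG u v
    have hc : ((2 * r + 1 : ℕ) : ℝ) = LR := by rw [hLR]; push_cast; ring
    rwa [hc] at this
  have hkey := key_bound hp x hLR0 hG'
  have hLp : 0 < LR ^ p := Real.rpow_pos_of_pos (by linarith) _
  set τ : Fin M → ℝ := fun k => LR ^ p * QQ p x G k with hτ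
  have hτ0 : ∀ k, 0 ≤ τ k := fun k => mul_nonneg hLp.le (QQ_nonneg _ _ _ _)
  set S : ℝ := ∑ k, τ k with hS
  have hS0 : 0 ≤ S := Finset.sum_nonneg (fun k _ => hτ0 k)
  set c0 : ℝ := LR ^ p * (4 * (n : ℝ)) with hc0
  have hc0pos : 0 < c0 := by positivity
  have hSc0 : S ≤ c0 := by
    rw [hS, hτ, ← Finset.mul_sum, hc0]
    apply mul_le_mul_of_nonneg_left _ hLp.le
    have h1 := sum_QQ_le p x G
    have h2 : (G.card : ℝ) ≤ 4 * (n : ℝ) := by exact_mod_cast hGcard
    linarith
  have hRHSpos : 0 ≤ 16 * (n : ℝ) * LR ^ p * Real.log (2 * (n : ℝ) ^ 2) / ε ^ 2 := by positivity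
  rcases hS0.eq_or_lt with hS00 | hSpos
  · -- all coordinates are constant
    have hτzero : ∀ k, τ k = 0 := by
      intro k
      have := (Finset.sum_eq_zero_iff_of_nonneg (fun k _ => hτ0 k)).mp hS00.symm k (Finset.mem_univ k)
      exact this
    have heq : ∀ u v k, x u k = x v k := by
      intro u v k
      apply eq_of_rpow_le_zero hp
      have := hkey k u v
      have h0 : LR ^ p * QQ p x G k = 0 := hτzero k
      rw [h0, zero_mul] at this
      exact this
    refine ⟨0, fun _ => Fin.elim0, ?_, ?_⟩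
    · simp only [Nat.cast_zero]
      linarith
    · intro u v
      have : ∑ k, |x u k - x v k| ^ p = 0 := by
        apply Finset.sum_eq_zero
        intro k _
        rw [heq u v k, sub_self, abs_zero, Real.zero_rpow hp0.ne']
      rw [this]
      simp
  · -- sensitivity sampling
    set pr : Fin M → ℝ := fun k => τ k / S with hpr
    have hpr0 : ∀ k, 0 ≤ pr k := fun k => div_nonneg (hτ0 k) hS0
    have hpr1 : ∑ k, pr k = 1 := by
      rw [hpr, ← Finset.sum_div]
      exact div_self hSpos.ne'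
    have hτpr : ∀ k, τ k = pr k * S := fun k => by
      rw [hpr]; field_simp
    set N : ℕ := ⌊4 * c0 * Real.log (2 * (n : ℝ) ^ 2) / ε ^ 2⌋₊ + 1 with hN
    have hNpos : 0 < N := by omega
    have hNR : (0 : ℝ) < N := by exact_mod_cast hNpos
    have hNgt : 4 * c0 * Real.log (2 * (n : ℝ) ^ 2) / ε ^ 2 < N := by
      rw [hN]; push_cast
      exact Nat.lt_floor_add_one _
    have hNle : (N : ℝ) ≤ 4 * c0 * Real.log (2 * (n : ℝ) ^ 2) / ε ^ 2 + 1 := by
      rw [hN]; push_cast
      have := Nat.floor_le (a := 4 * c0 * Real.log (2 * (n : ℝ) ^ 2) / ε ^ 2) (by positivity)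
      linarith
    let C := {c : Fin n × Fin n // DD p x c.1 c.2 ≠ 0}
    let Y : C → Fin M → ℝ := fun c k =>
      |x c.1.1 k - x c.1.2 k| ^ p / ((N : ℝ) * pr k * DD p x c.1.1 c.1.2)
    have hDpos : ∀ c : C, 0 < DD p x c.1.1 c.1.2 := fun c =>
      lt_of_le_of_ne (DD_nonneg _ _ _ _) c.2.symm
    have hzero : ∀ (c : C) k, pr k = 0 → |x c.1.1 k - x c.1.2 k| ^ p = 0 := by
      intro c k hk
      have h1 := hkey k c.1.1 c.1.2
      have h2 : LR ^ p * QQ p x G k = pr k * S := hτpr k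
      rw [h2, hk, zero_mul, zero_mul] at h1
      exact le_antisymm h1 (Real.rpow_nonneg (abs_nonneg _) _)
    have hY0 : ∀ c k, 0 ≤ Y c k := by
      intro c k
      apply div_nonneg (Real.rpow_nonneg (abs_nonneg _) _)
      exact mul_nonneg (mul_nonneg hNR.le (hpr0 k)) (hDpos c).le
    have hYβ : ∀ c k, Y c k ≤ S / N := by
      intro c k
      rcases (hpr0 k).eq_or_lt with h | h
      · show |x c.1.1 k - x c.1.2 k| ^ p / ((N : ℝ) * pr k * DD p x c.1.1 c.1.2) ≤ S / N
        rw [← h]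
        simp only [mul_zero, zero_mul, div_zero]
        positivity
      · show |x c.1.1 k - x c.1.2 k| ^ p / ((N : ℝ) * pr k * DD p x c.1.1 c.1.2) ≤ S / N
        have h1 := hkey k c.1.1 c.1.2
        have h2 : LR ^ p * QQ p x G k = pr k * S := hτpr k
        rw [h2] at h1
        have hD := hDpos c
        rw [div_le_div_iff₀ (by positivity) hNR]
        calc |x c.1.1 k - x c.1.2 k| ^ p * (N : ℝ)
            ≤ pr k * S * DD p x c.1.1 c.1.2 * (N : ℝ) :=
              mul_le_mul_of_nonneg_right h1 hNR.le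
          _ = S * ((N : ℝ) * pr k * DD p x c.1.1 c.1.2) := by ring
    have hmean : ∀ c, ∑ k, pr k * Y c k = 1 / (N : ℝ) := by
      intro c
      have hD := hDpos c
      have h1 : ∀ k, pr k * Y c k =
          |x c.1.1 k - x c.1.2 k| ^ p / ((N : ℝ) * DD p x c.1.1 c.1.2) := by
        intro k
        rcases (hpr0 k).eq_or_lt with h | h
        · rw [← h, zero_mul, hzero c k h.symm, zero_div]
        · show pr k * (|x c.1.1 k - x c.1.2 k| ^ p / ((N : ℝ) * pr k * DD p x c.1.1 c.1.2)) = _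
          field_simp
      rw [Finset.sum_congr rfl (fun k _ => h1 k), ← Finset.sum_div]
      show DD p x c.1.1 c.1.2 / ((N : ℝ) * DD p x c.1.1 c.1.2) = 1 / (N : ℝ)
      field_simp
    have hcardC : (Fintype.card C : ℝ) ≤ (n : ℝ) ^ 2 := by
      have h1 : Fintype.card C ≤ Fintype.card (Fin n × Fin n) := Fintype.card_subtype_le _
      have h2 : Fintype.card (Fin n × Fin n) = n ^ 2 := by simp [sq]
      rw [h2] at h1
      exact_mod_cast h1
    have hunion : 2 * (Fintype.card C : ℝ) * Real.exp (-(ε ^ 2 / (4 * (S / N)))) < 1 := by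
      have hy : Real.log (2 * (n : ℝ) ^ 2) < ε ^ 2 / (4 * (S / N)) := by
        have h1 : 4 * c0 * Real.log (2 * (n : ℝ) ^ 2) < N * ε ^ 2 := by
          have := (div_lt_iff₀ (by positivity : (0 : ℝ) < ε ^ 2)).mp hNgt
          linarith
        have h2 : 4 * S * Real.log (2 * (n : ℝ) ^ 2) ≤ 4 * c0 * Real.log (2 * (n : ℝ) ^ 2) := by
          apply mul_le_mul_of_nonneg_right _ hlog.le
          linarith
        have h3 : ε ^ 2 / (4 * (S / N)) = N * ε ^ 2 / (4 * S) := by
          field_simp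
        rw [h3, lt_div_iff₀ (by positivity)]
        linarith
      have hexp : Real.exp (-(ε ^ 2 / (4 * (S / N)))) < (2 * (n : ℝ) ^ 2)⁻¹ := by
        have hpos : 0 < 2 * (n : ℝ) ^ 2 := by positivity
        have h5 : (2 * (n : ℝ) ^ 2)⁻¹ = Real.exp (-Real.log (2 * (n : ℝ) ^ 2)) := by
          rw [Real.exp_neg, Real.exp_log hpos]
        rw [h5]
        apply Real.exp_lt_exp.mpr
        linarith
      have hpos : 0 < 2 * (n : ℝ) ^ 2 := by positivity
      calc 2 * (Fintype.card C : ℝ) * Real.exp (-(ε ^ 2 / (4 * (S / N))))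
          ≤ 2 * (n : ℝ) ^ 2 * Real.exp (-(ε ^ 2 / (4 * (S / N)))) := by
            apply mul_le_mul_of_nonneg_right _ (Real.exp_pos _).le
            linarith
        _ < 2 * (n : ℝ) ^ 2 * (2 * (n : ℝ) ^ 2)⁻¹ := mul_lt_mul_of_pos_left hexp hpos
        _ = 1 := mul_inv_cancel₀ hpos.ne'
    obtain ⟨t, ht⟩ := exists_good_tuple pr hpr0 hpr1 Y N hNpos (S / N) (by positivity) hY0 hYβ
      hmean ε hε0 hε1 hunion
    -- the map
    let g : Fin n → Fin N → ℝ := fun u s => x u (t s) * ((N : ℝ) * pr (t s)) ^ (-(1 / p))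
    have hgterm : ∀ u v s, |g u s - g v s| ^ p =
        |x u (t s) - x v (t s)| ^ p * ((N : ℝ) * pr (t s))⁻¹ := by
      intro u v s
      have hb : 0 ≤ (N : ℝ) * pr (t s) := mul_nonneg hNR.le (hpr0 _)
      have hc : 0 ≤ ((N : ℝ) * pr (t s)) ^ (-(1 / p)) := Real.rpow_nonneg hb _
      have h1 : g u s - g v s = (x u (t s) - x v (t s)) * ((N : ℝ) * pr (t s)) ^ (-(1 / p)) := by
        show x u (t s) * _ - x v (t s) * _ = _
        ring
      rw [h1, abs_mul, abs_of_nonneg hc, Real.mul_rpow (abs_nonneg _) hc, ← Real.rpow_mul hb]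
      have h2 : -(1 / p) * p = -1 := by field_simp
      rw [h2, Real.rpow_neg_one]
    refine ⟨N, g, ?_, ?_⟩
    · have h1 : 4 * c0 * Real.log (2 * (n : ℝ) ^ 2) / ε ^ 2 =
          16 * (n : ℝ) * LR ^ p * Real.log (2 * (n : ℝ) ^ 2) / ε ^ 2 := by
        rw [hc0]; ring
      rw [h1] at hNle
      linarith
    · intro u v
      by_cases hD0 : DD p x u v = 0
      · have heq : ∀ k, x u k = x v k := by
          intro k
          apply eq_of_rpow_le_zero hp
          have := term_le_DD p x u v k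
          rwa [hD0] at this
        have h1 : ∑ k, |x u k - x v k| ^ p = 0 := hD0
        have h2 : ∑ s, |g u s - g v s| ^ p = 0 := by
          apply Finset.sum_eq_zero
          intro s _
          rw [hgterm, heq (t s), sub_self, abs_zero, Real.zero_rpow hp0.ne', zero_mul]
        rw [h1, h2]
        simp
      · let c : C := ⟨(u, v), hD0⟩
        have hD : 0 < DD p x u v := hDpos c
        have hsum : ∑ s, |g u s - g v s| ^ p = DD p x u v * ∑ s, Y c (t s) := by
          rw [Finset.mul_sum]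
          apply Finset.sum_congr rfl
          intro s _
          rw [hgterm]
          show _ = DD p x u v * (|x u (t s) - x v (t s)| ^ p /
            ((N : ℝ) * pr (t s) * DD p x u v))
          rcases (hpr0 (t s)).eq_or_lt with h | h
          · rw [← h]; simp
          · field_simp
        have hb := abs_le.mp (ht c)
        have hDD : ∑ k, |x u k - x v k| ^ p = DD p x u v := rfl
        rw [hsum, hDD]
        constructor
        · rw [mul_comm]
          apply mul_le_mul_of_nonneg_left _ hD.le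
          linarith [hb.1]
        · rw [mul_comm]
          apply mul_le_mul_of_nonneg_right _ hD.le
          linarith [hb.2]

end P249
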