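import Mathlib

open scoped Classical

namespace P249

variable {V : Type*}

/-- `Conn A k u v`: there is a walk with at most `k` steps of the relation `A` from `u` to `v`. -/
def Conn (A : V → V → Prop) : ℕ → V → V → Prop
  | 0, u, v => u = v
  | k + 1, u, v => Conn A k u v ∨ ∃ x, Conn A k u x ∧ A x v

/-- Undirected adjacency for a finite set of pairs. -/
def adj (G : Finset (V × V)) (x y : V) : Prop := (x, y) ∈ G ∨ (y, x) ∈ G

lemma adj_symm (G : Finset (V × V)) {x y : V} (h : adj G x y) : adj G y x := h.symm

lemma Conn.refl (A : V → V → Prop) (k : ℕ) (u : V) : Conn A k u u := by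
  induction k with
  | zero => rfl
  | succ k ih => exact Or.inl ih

lemma Conn.step {A : V → V → Prop} {k : ℕ} {u x v : V} (h : Conn A k u x) (hA : A x v) :
    Conn A (k + 1) u v := Or.inr ⟨x, h, hA⟩

lemma Conn.le {A : V → V → Prop} {k l : ℕ} (hkl : k ≤ l) {u v : V} (h : Conn A k u v) :
    Conn A l u v := by
  induction hkl with
  | refl => exact h
  | step _ ih => exact Or.inl ih

lemma Conn.mono {A B : V → V → Prop} (hAB : ∀ x y, A x y → B x y) {k : ℕ} {u v : V}
    (h : Conn A k u v) : Conn B k u v := by
  induction k generalizing v with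
  | zero => exact h
  | succ k ih =>
    rcases h with h | ⟨x, h, hx⟩
    · exact Or.inl (ih h)
    · exact Or.inr ⟨x, ih h, hAB _ _ hx⟩

lemma Conn.trans {A : V → V → Prop} {k l : ℕ} {u v w : V} (h1 : Conn A k u v)
    (h2 : Conn A l v w) : Conn A (k + l) u w := by
  induction l generalizing w with
  | zero =>
    have : v = w := h2
    subst this
    exact h1
  | succ l ih =>
    rcases h2 with h2 | ⟨x, h2, hx⟩
    · exact Or.inl (ih h2)
    · exact Or.inr ⟨x, ih h2, hx⟩

lemma Conn.symm {A : V → V → Prop} (hA : ∀ x y, A x y → A y x) {k : ℕ} {u v : V}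
    (h : Conn A k u v) : Conn A k v u := by
  induction k generalizing v with
  | zero => exact (show u = v from h).symm
  | succ k ih =>
    rcases h with h | ⟨x, h, hx⟩
    · exact Or.inl (ih h)
    · have h1 : Conn A 1 v x := Or.inr ⟨v, rfl, hA _ _ hx⟩
      have := h1.trans (ih h)
      rwa [add_comm] at this

/-- `Span A w c u v`: every function whose increments over `A`-edges are bounded by `R w`
has increment at most `R c` between `u` and `v`. -/
def Span (A : V → V → Prop) (w : V → V → ℝ) (c : ℝ) (u v : V) : Prop :=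
  ∀ (f : V → ℝ) (R : ℝ), 0 ≤ R → (∀ a b, A a b → |f a - f b| ≤ R * w a b) → |f u - f v| ≤ R * c

lemma span_of_conn {A : V → V → Prop} {w : V → V → ℝ} {W : ℝ} (hW0 : 0 ≤ W)
    (hW : ∀ a b, A a b → w a b ≤ W) {k : ℕ} {u v : V} (h : Conn A k u v) :
    Span A w (k * W) u v := by
  intro f R hR hf
  induction k generalizing v with
  | zero =>
    have : u = v := h
    subst this
    simp
  | succ k ih =>
    rcases h with h | ⟨x, h, hx⟩
    · have := ih h
      have h2 : R * (k * W) ≤ R * (((k + 1 : ℕ) : ℝ) * W) := by
        apply mul_le_mul_of_nonneg_left _ hR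
        apply mul_le_mul_of_nonneg_right _ hW0
        push_cast; linarith
      linarith
    · have h1 := ih h
      have h2 := hf _ _ hx
      have h3 : R * w x v ≤ R * W := mul_le_mul_of_nonneg_left (hW _ _ hx) hR
      have h4 : |f u - f v| ≤ |f u - f x| + |f x - f v| := abs_sub_le _ _ _
      have h5 : R * (((k + 1 : ℕ) : ℝ) * W) = R * (k * W) + R * W := by push_cast; ring
      linarith

lemma Span.mono {A B : V → V → Prop} (hAB : ∀ x y, A x y → B x y) {w : V → V → ℝ} {c : ℝ}
    {u v : V} (h : Span A w c u v) : Span B w c u v := by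
  intro f R hR hf
  exact h f R hR (fun a b hab => hf a b (hAB a b hab))

/-- No edge of `G` can be replaced by a walk of at most `L` other edges. -/
def Sparse (L : ℕ) (G : Finset (V × V)) : Prop :=
  ∀ f ∈ G, ¬ Conn (adj (G.erase f)) L f.1 f.2

lemma adj_mono {G H : Finset (V × V)} (h : G ⊆ H) (x y : V) (hA : adj G x y) : adj H x y :=
  hA.imp (fun h1 => h h1) (fun h1 => h h1)

lemma conn_insert_split (e : V × V) (H : Finset (V × V)) (u : V) (k : ℕ) (v : V)
    (hc : Conn (adj (insert e H)) k u v) :
    Conn (adj H) k u v ∨ ∃ x y k1 k2, (x = e.1 ∨ x = e.2) ∧ (y = e.1 ∨ y = e.2) ∧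
      k1 + k2 + 1 ≤ k ∧ Conn (adj H) k1 u x ∧ Conn (adj H) k2 y v := by
  induction k generalizing v with
  | zero => exact Or.inl hc
  | succ k ih =>
    rcases hc with h | ⟨z, h, hz⟩
    · rcases ih v h with h | ⟨x, y, k1, k2, hx, hy, hk, h1, h2⟩
      · exact Or.inl (Or.inl h)
      · exact Or.inr ⟨x, y, k1, k2, hx, hy, by omega, h1, h2⟩
    · have hcases : adj H z v ∨ (z = e.1 ∧ v = e.2) ∨ (z = e.2 ∧ v = e.1) := by
        rcases hz with hz | hz
        · rcases Finset.mem_insert.mp hz with hz | hz
          · right; left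
            have : (z, v) = e := hz
            rw [← this]; exact ⟨rfl, rfl⟩
          · exact Or.inl (Or.inl hz)
        · rcases Finset.mem_insert.mp hz with hz | hz
          · right; right
            have : (v, z) = e := hz
            rw [← this]; exact ⟨rfl, rfl⟩
          · exact Or.inl (Or.inr hz)
      rcases hcases with hz | hz
      · rcases ih z h with h | ⟨x, y, k1, k2, hx, hy, hk, h1, h2⟩
        · exact Or.inl (Or.inr ⟨z, h, hz⟩)
        · exact Or.inr ⟨x, y, k1, k2 + 1, hx, hy, by omega, h1, Or.inr ⟨z, h2, hz⟩⟩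
      · have hz' : (z = e.1 ∨ z = e.2) ∧ (v = e.1 ∨ v = e.2) := by
          rcases hz with ⟨h1, h2⟩ | ⟨h1, h2⟩
          · exact ⟨Or.inl h1, Or.inr h2⟩
          · exact ⟨Or.inr h1, Or.inl h2⟩
        rcases ih z h with h | ⟨x, y, k1, k2, hx, hy, hk, h1, h2⟩
        · exact Or.inr ⟨z, v, k, 0, hz'.1, hz'.2, by omega, h, Conn.refl _ _ _⟩
        · exact Or.inr ⟨x, v, k1, 0, hx, hz'.2, by omega, h1, Conn.refl _ _ _⟩

lemma sparse_insert {L : ℕ} {G : Finset (V × V)} {e : V × V} (he : e ∉ G) (hG : Sparse L G)
    (hno : ¬ Conn (adj G) L e.1 e.2) : Sparse L (insert e G) := by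
  intro f hf hc
  rcases Finset.mem_insert.mp hf with rfl | hfG
  · rw [Finset.erase_insert he] at hc
    exact hno hc
  · have hne : f ≠ e := fun h => he (h ▸ hfG)
    rw [Finset.erase_insert_of_ne hne.symm] at hc
    rcases conn_insert_split e (G.erase f) f.1 L f.2 hc with h | ⟨x, y, k1, k2, hx, hy, hk, h1, h2⟩
    · exact hG f hfG h
    · by_cases hxy : x = y
      · subst hxy
        exact hG f hfG ((h1.trans h2).le (by omega))
      · have hsub : ∀ a b, adj (G.erase f) a b → adj G a b :=
          adj_mono (Finset.erase_subset _ _)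
        have h1' : Conn (adj G) k1 x f.1 := (h1.mono hsub).symm (fun _ _ h => adj_symm G h)
        have h2' : Conn (adj G) k2 f.2 y := (h2.mono hsub).symm (fun _ _ h => adj_symm G h)
        have hedge : adj G f.1 f.2 := Or.inl (by simpa using hfG)
        have h3 : Conn (adj G) (k1 + 1 + k2) x y := (h1'.step hedge).trans h2'
        have h4 : Conn (adj G) L x y := h3.le (by omega)
        rcases hx with hx | hx <;> rcases hy with hy | hy
        · exact hxy (hx.trans hy.symm)
        · subst hx; subst hy; exact hno h4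
        · subst hx; subst hy; exact hno (h4.symm (fun _ _ h => adj_symm G h))
        · exact hxy (hx.trans hy.symm)

theorem exists_greedy (w : V → V → ℝ) (hw : ∀ a b, 0 ≤ w a b) (hsym : ∀ a b, w a b = w b a)
    (L : ℕ) (hL : 1 ≤ L) (P : Finset (V × V)) :
    ∃ G, G ⊆ P ∧ Sparse L G ∧ ∀ e ∈ P, Span (adj G) w (L * w e.1 e.2) e.1 e.2 := by
  induction P using Finset.induction_on_max_value (fun e : V × V => w e.1 e.2) with
  | empty =>
    refine ⟨∅, subset_rfl, ?_, ?_⟩
    · intro f hf; simp at hf
    · intro e he; simp at he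
  | insert a s ha hmax ih =>
    obtain ⟨G, hGs, hG, hspan⟩ := ih
    have haG : a ∉ G := fun h => ha (hGs h)
    by_cases hc : Conn (adj G) L a.1 a.2
    · refine ⟨G, hGs.trans (Finset.subset_insert _ _), hG, ?_⟩
      intro e he
      rcases Finset.mem_insert.mp he with rfl | he
      · refine span_of_conn (hw _ _) ?_ hc
        intro x y hxy
        rcases hxy with h | h
        · exact hmax _ (hGs h)
        · rw [hsym x y]; exact hmax _ (hGs h)
      · exact hspan e he
    · refine ⟨insert a G, Finset.insert_subset_insert _ hGs, sparse_insert haG hG hc, ?_⟩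
      intro e he
      rcases Finset.mem_insert.mp he with rfl | he
      · intro f R hR hf
        have h1 := hf e.1 e.2 (Or.inl (by simp))
        have h2 : R * w e.1 e.2 ≤ R * (L * w e.1 e.2) := by
          apply mul_le_mul_of_nonneg_left _ hR
          have : (1 : ℝ) ≤ L := by exact_mod_cast hL
          nlinarith [hw e.1 e.2]
        linarith
      · exact (hspan e he).mono (adj_mono (Finset.subset_insert _ _))

section Moore

variable [Fintype V]

/-- The neighbours of `x`. -/
noncomputable def nbr (K : Finset (V × V)) (x : V) : Finset V :=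
  Finset.univ.filter (fun y => adj K x y)

lemma sparse_mono {L : ℕ} {G H : Finset (V × V)} (hGH : G ⊆ H) (hH : Sparse L H) : Sparse L G := by
  intro f hf hc
  refine hH f (hGH hf) (hc.mono ?_)
  exact adj_mono (Finset.erase_subset_erase _ hGH)

lemma sparse_no_loop {L : ℕ} {K : Finset (V × V)} (hK : Sparse L K) {x y : V} (h : adj K x y) :
    x ≠ y := by
  intro hxy
  subst hxy
  have hm : (x, x) ∈ K := h.elim id id
  exact hK _ hm (Conn.refl _ _ _)

/-- Avoiding `x`: if `x` has distance at least `k` from `v` then a walk of at most `k` steps from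
`v` to `z ≠ x` avoids `x`. -/
lemma conn_avoid {A : V → V → Prop} {v x : V} (k : ℕ) (hx : ∀ j, j < k → ¬ Conn A j v x)
    (z : V) (hz : z ≠ x) (hv : v ≠ x ∨ k = 0) (h : Conn A k v z) :
    Conn (fun a b => A a b ∧ a ≠ x ∧ b ≠ x) k v z := by
  induction k generalizing z with
  | zero => exact h
  | succ k ih =>
    have hx' : ∀ j, j < k → ¬ Conn A j v x := fun j hj => hx j (by omega)
    have hvk : v ≠ x ∨ k = 0 := by
      left
      intro hvx
      subst hvx
      exact hx 0 (by omega) rfl
    rcases h with h | ⟨y, h, hy⟩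
    · exact Or.inl (ih hx' z hz hvk h)
    · have hyx : y ≠ x := by
        intro hyx
        subst hyx
        exact hx k (by omega) h
      exact Or.inr ⟨y, ih hx' y hyx hvk h, hy, hyx, hz⟩

lemma unique_parent {L : ℕ} {K : Finset (V × V)} (hK : Sparse L K) {v x y y' : V} {i : ℕ}
    (hL : 2 * i + 1 ≤ L) (hx : ∀ j, j < i → ¬ Conn (adj K) j v x)
    (hy : adj K x y) (hy' : adj K x y') (hc : Conn (adj K) i v y) (hc' : Conn (adj K) i v y')
    (hv : v ≠ x ∨ i = 0) (hne : y ≠ y') : False := by
  have hxy : x ≠ y := sparse_no_loop hK hy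
  have hxy' : x ≠ y' := sparse_no_loop hK hy'
  have h1 := conn_avoid i hx y hxy.symm hv hc
  have h2 := conn_avoid i hx y' hxy'.symm hv hc'
  -- choose the edge `f` joining `x` and `y`
  have key : ∀ f ∈ K, (f = (x, y) ∨ f = (y, x)) → False := by
    intro f hf hfe
    have hB : ∀ a b, (adj K a b ∧ a ≠ x ∧ b ≠ x) → adj (K.erase f) a b := by
      rintro a b ⟨hab, hax, hbx⟩
      have hne1 : (a, b) ≠ f := by
        rcases hfe with rfl | rfl
        · intro h; exact hax (congrArg Prod.fst h)
        · intro h; exact hbx (congrArg Prod.snd h)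
      have hne2 : (b, a) ≠ f := by
        rcases hfe with rfl | rfl
        · intro h; exact hbx (congrArg Prod.fst h)
        · intro h; exact hax (congrArg Prod.snd h)
      rcases hab with h | h
      · exact Or.inl (Finset.mem_erase.mpr ⟨hne1, h⟩)
      · exact Or.inr (Finset.mem_erase.mpr ⟨hne2, h⟩)
    have hsymm : ∀ a b, adj (K.erase f) a b → adj (K.erase f) b a :=
      fun _ _ h => adj_symm _ h
    have h1' : Conn (adj (K.erase f)) i y v := (h1.mono hB).symm hsymm
    have h2' : Conn (adj (K.erase f)) i v y' := h2.mono hB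
    have hedge : adj (K.erase f) y' x := by
      have hne1 : (y', x) ≠ f := by
        rcases hfe with rfl | rfl
        · intro h; exact hxy' (congrArg Prod.fst h).symm
        · intro h; exact hne (congrArg Prod.fst h).symm
      have hne2 : (x, y') ≠ f := by
        rcases hfe with rfl | rfl
        · intro h; exact hne (congrArg Prod.snd h).symm
        · intro h; exact hxy (congrArg Prod.fst h)
      rcases hy' with h | h
      · exact Or.inr (Finset.mem_erase.mpr ⟨hne2, h⟩)
      · exact Or.inl (Finset.mem_erase.mpr ⟨hne1, h⟩)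
    have h3 : Conn (adj (K.erase f)) L y x := ((h1'.trans h2').step hedge).le (by omega)
    rcases hfe with rfl | rfl
    · exact hK _ hf (h3.symm hsymm)
    · exact hK _ hf h3
  rcases hy with h | h
  · exact key _ h (Or.inl rfl)
  · exact key _ h (Or.inr rfl)

/-- Vertices at exact distance `i` from `v`. -/
noncomputable def lev (K : Finset (V × V)) (v : V) (i : ℕ) : Finset V :=
  Finset.univ.filter (fun x => Conn (adj K) i v x ∧ ∀ j, j < i → ¬ Conn (adj K) j v x)

lemma lev_growth {L : ℕ} {K : Finset (V × V)} (hK : Sparse L K) {U : Finset V} {v : V}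
    (hdeg : ∀ x ∈ U, 3 ≤ (nbr K x).card)
    (hU : ∀ x, Conn (adj K) L v x → x ∈ U) (hConnL : ∀ k x, Conn (adj K) k v x → x ∈ U)
    {i : ℕ} (hi : 2 * (i + 1) + 1 ≤ L) :
    2 * (lev K v i).card ≤ (lev K v (i + 1)).card := by
  classical
  -- children of x
  let ch : V → Finset V := fun x => (nbr K x).filter (fun y => ¬ Conn (adj K) i v y)
  have hv_ne : ∀ x ∈ lev K v i, ∀ k, k = i → (v ≠ x ∨ k = 0) := by
    intro x hx k hk
    subst hk
    rcases Nat.eq_zero_or_pos k with h | h
    · exact Or.inr h
    · left
      intro hvx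
      subst hvx
      have := (Finset.mem_filter.mp hx).2.2 0 h
      exact this rfl
  have hch2 : ∀ x ∈ lev K v i, 2 ≤ (ch x).card := by
    intro x hx
    have hxm := (Finset.mem_filter.mp hx).2
    have hxU : x ∈ U := hConnL i x hxm.1
    have h3 := hdeg x hxU
    have hsplit := Finset.card_filter_add_card_filter_not (s := nbr K x)
      (fun y => Conn (adj K) i v y)
    have hone : ((nbr K x).filter (fun y => Conn (adj K) i v y)).card ≤ 1 := by
      apply Finset.card_le_one.mpr
      intro a ha b hb
      by_contra hab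
      have ha' := Finset.mem_filter.mp ha
      have hb' := Finset.mem_filter.mp hb
      exact unique_parent hK (by omega) hxm.2 (Finset.mem_filter.mp ha'.1).2
        (Finset.mem_filter.mp hb'.1).2 ha'.2 hb'.2 (hv_ne x hx i rfl) hab
    show 2 ≤ ((nbr K x).filter (fun y => ¬ Conn (adj K) i v y)).card
    omega
  have hsub : (lev K v i).biUnion ch ⊆ lev K v (i + 1) := by
    intro y hy
    obtain ⟨x, hx, hyx⟩ := Finset.mem_biUnion.mp hy
    have hyx' := Finset.mem_filter.mp hyx
    have hxm := (Finset.mem_filter.mp hx).2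
    refine Finset.mem_filter.mpr ⟨Finset.mem_univ _, ?_, ?_⟩
    · exact hxm.1.step (Finset.mem_filter.mp hyx'.1).2
    · intro j hj hcj
      exact hyx'.2 (hcj.le (by omega))
  have hdisj : ∀ x ∈ lev K v i, ∀ x' ∈ lev K v i, x ≠ x' → Disjoint (ch x) (ch x') := by
    intro x hx x' hx' hne
    rw [Finset.disjoint_left]
    intro y hy hy'
    have hy1 := Finset.mem_filter.mp hy
    have hy2 := Finset.mem_filter.mp hy'
    have hxm := (Finset.mem_filter.mp hx).2
    have hxm' := (Finset.mem_filter.mp hx').2
    have hyadj : adj K x y := (Finset.mem_filter.mp hy1.1).2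
    have hyadj' : adj K x' y := (Finset.mem_filter.mp hy2.1).2
    have hexact : ∀ j, j < i + 1 → ¬ Conn (adj K) j v y := by
      intro j hj hcj
      exact hy1.2 (hcj.le (by omega))
    have hvy : v ≠ y ∨ i + 1 = 0 := by
      left
      intro hvy
      subst hvy
      exact hy1.2 (Conn.refl _ _ _)
    exact unique_parent hK (by omega) hexact (adj_symm K hyadj) (adj_symm K hyadj')
      (hxm.1.le (by omega)) (hxm'.1.le (by omega)) hvy hne
  have hcard : ((lev K v i).biUnion ch).card = ∑ x ∈ lev K v i, (ch x).card :=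
    Finset.card_biUnion hdisj
  have hsum : 2 * (lev K v i).card ≤ ∑ x ∈ lev K v i, (ch x).card := by
    have := Finset.card_nsmul_le_sum (lev K v i) (fun x => (ch x).card) 2 hch2
    simpa [mul_comm] using this
  have := Finset.card_le_card hsub
  omega

lemma bfs_bound {L r : ℕ} {K : Finset (V × V)} (hK : Sparse L K) {U : Finset V} {v : V}
    (hvU : v ∈ U) (hdeg : ∀ x ∈ U, 3 ≤ (nbr K x).card)
    (hedge : ∀ a b, adj K a b → a ∈ U ∧ b ∈ U) (hL : 2 * r + 1 ≤ L) :
    2 ^ r ≤ U.card := by
  have hConn : ∀ k x, Conn (adj K) k v x → x ∈ U := by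
    intro k
    induction k with
    | zero => intro x hx; have : v = x := hx; exact this ▸ hvU
    | succ k ih =>
      intro x hx
      rcases hx with hx | ⟨y, _, hy⟩
      · exact ih x hx
      · exact (hedge _ _ hy).2
  have hlev : ∀ i, i ≤ r → 2 ^ i ≤ (lev K v i).card := by
    intro i
    induction i with
    | zero =>
      intro _
      have : v ∈ lev K v 0 := Finset.mem_filter.mpr ⟨Finset.mem_univ _, rfl, by intro j hj; omega⟩
      have := Finset.card_pos.mpr ⟨v, this⟩
      simpa using this
    | succ i ih =>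
      intro hi
      have h1 := ih (by omega)
      have h2 := lev_growth hK hdeg (fun x => hConn L x) hConn (i := i) (by omega)
      rw [pow_succ]
      omega
  have hsub : lev K v r ⊆ U := by
    intro x hx
    exact hConn r x (Finset.mem_filter.mp hx).2.1
  exact (hlev r le_rfl).trans (Finset.card_le_card hsub)

/-- Edges of `H` inside `U`. -/
noncomputable def inner (H : Finset (V × V)) (U : Finset V) : Finset (V × V) :=
  H.filter (fun e => e.1 ∈ U ∧ e.2 ∈ U)

theorem inner_card_le {L r : ℕ} {H : Finset (V × V)} (hH : Sparse L H) (hL : 2 * r + 1 ≤ L)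
    (hr : Fintype.card V < 2 ^ r) (U : Finset V) : (inner H U).card ≤ 4 * U.card := by
  induction U using Finset.strongInduction with
  | H U ih =>
    rcases U.eq_empty_or_nonempty with rfl | ⟨v, hv⟩
    · simp [inner]
    set K := inner H U with hKdef
    have hKsub : K ⊆ H := Finset.filter_subset _ _
    have hKs : Sparse L K := sparse_mono hKsub hH
    have hedge : ∀ a b, adj K a b → a ∈ U ∧ b ∈ U := by
      rintro a b (h | h)
      · exact (Finset.mem_filter.mp h).2
      · exact ((Finset.mem_filter.mp h).2).symm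
    by_cases hlow : ∃ x ∈ U, (nbr K x).card ≤ 2
    · obtain ⟨x, hxU, hx⟩ := hlow
      have hlt : U.erase x ⊂ U := Finset.erase_ssubset hxU
      have h1 := ih _ hlt
      have hsub : K ⊆ inner H (U.erase x) ∪
          ((nbr K x).image (fun y => (x, y)) ∪ (nbr K x).image (fun y => (y, x))) := by
        intro e he
        have he' := Finset.mem_filter.mp he
        by_cases h1x : e.1 = x
        · apply Finset.mem_union_right
          apply Finset.mem_union_left
          refine Finset.mem_image.mpr ⟨e.2, ?_, ?_⟩
          · refine Finset.mem_filter.mpr ⟨Finset.mem_univ _, Or.inl ?_⟩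
            rw [← h1x]; exact he
          · rw [← h1x]
        · by_cases h2x : e.2 = x
          · apply Finset.mem_union_right
            apply Finset.mem_union_right
            refine Finset.mem_image.mpr ⟨e.1, ?_, ?_⟩
            · refine Finset.mem_filter.mpr ⟨Finset.mem_univ _, Or.inr ?_⟩
              rw [← h2x]; exact he
            · rw [← h2x]
          · apply Finset.mem_union_left
            refine Finset.mem_filter.mpr ⟨he'.1, ?_, ?_⟩
            · exact Finset.mem_erase.mpr ⟨h1x, he'.2.1⟩
            · exact Finset.mem_erase.mpr ⟨h2x, he'.2.2⟩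
      have h2 := Finset.card_le_card hsub
      have h3 := Finset.card_union_le (inner H (U.erase x))
        ((nbr K x).image (fun y => (x, y)) ∪ (nbr K x).image (fun y => (y, x)))
      have h4 := Finset.card_union_le ((nbr K x).image (fun y => (x, y)))
        ((nbr K x).image (fun y => (y, x)))
      have h5 : ((nbr K x).image (fun y => (x, y))).card ≤ (nbr K x).card := Finset.card_image_le
      have h6 : ((nbr K x).image (fun y => (y, x))).card ≤ (nbr K x).card := Finset.card_image_le
      have h7 : (U.erase x).card + 1 = U.card := Finset.card_erase_add_one hxU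
      omega
    · exfalso
      have hdeg : ∀ x ∈ U, 3 ≤ (nbr K x).card := by
        intro x hx
        by_contra hlt
        exact hlow ⟨x, hx, by omega⟩
      have := bfs_bound hKs hv hdeg hedge hL
      have h2 : U.card ≤ Fintype.card V := Finset.card_le_univ U
      omega

/-- The spanner theorem. -/
theorem exists_spanner (w : V → V → ℝ) (hw : ∀ a b, 0 ≤ w a b) (hsym : ∀ a b, w a b = w b a)
    {r : ℕ} (hr : Fintype.card V < 2 ^ r) :
    ∃ G : Finset (V × V), G.card ≤ 4 * Fintype.card V ∧
      ∀ u v, Span (adj G) w (((2 * r + 1 : ℕ) : ℝ) * w u v) u v := by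
  obtain ⟨G, -, hG, hspan⟩ := exists_greedy w hw hsym (2 * r + 1) (by omega) Finset.univ
  refine ⟨G, ?_, fun u v => hspan (u, v) (Finset.mem_univ _)⟩
  have h1 := inner_card_le hG le_rfl hr Finset.univ
  have h2 : inner G Finset.univ = G := by
    simp [inner]
  rw [h2] at h1
  simpa using h1

end Moore

end P249
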