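import Mathlib
import Vale.Agent.Lib.P249.Spanner

open scoped Classical
open Finset Real

namespace P249

/-- Chernoff bound plus union bound on a finite product, without measure theory. -/
theorem exists_good_tuple {ι C : Type*} [Fintype ι] [Fintype C] (pr : ι → ℝ) (hpr0 : ∀ k, 0 ≤ pr k)
    (hpr1 : ∑ k, pr k = 1) (Y : C → ι → ℝ) (N : ℕ) (hN : 0 < N) (β : ℝ) (hβ : 0 < β)
    (hY0 : ∀ c k, 0 ≤ Y c k) (hYβ : ∀ c k, Y c k ≤ β)
    (hmean : ∀ c, ∑ k, pr k * Y c k = 1 / (N : ℝ)) (ε : ℝ) (hε0 : 0 < ε) (hε1 : ε ≤ 1)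
    (hunion : 2 * (Fintype.card C : ℝ) * Real.exp (-(ε ^ 2 / (4 * β))) < 1) :
    ∃ t : Fin N → ι, ∀ c, |∑ s, Y c (t s) - 1| ≤ ε := by
  have hNr : (0 : ℝ) < N := by exact_mod_cast hN
  set lam : ℝ := ε / (2 * β) with hlam
  have hlam0 : 0 < lam := by positivity
  have hlamβ : lam * β = ε / 2 := by
    rw [hlam]; field_simp
  -- the weight of a tuple
  let W : (Fin N → ι) → ℝ := fun t => ∏ s, pr (t s)
  have hW0 : ∀ t, 0 ≤ W t := fun t => Finset.prod_nonneg (fun s _ => hpr0 _)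
  have hprod : ∀ g : ι → ℝ, ∑ t : Fin N → ι, ∏ s, g (t s) = (∑ k, g k) ^ N := by
    intro g
    have := (Finset.prod_univ_sum (fun _ : Fin N => (Finset.univ : Finset ι))
      (fun _ k => g k)).symm
    simpa [Fintype.piFinset_univ] using this
  have hW1 : ∑ t, W t = 1 := by
    have := hprod pr
    simpa [W, hpr1] using this
  -- moment bounds
  have hexp_le : ∀ c (σ : ℝ), (σ = 1 ∨ σ = -1) → ∀ k,
      Real.exp (σ * lam * Y c k) ≤ 1 + σ * lam * Y c k + lam ^ 2 * β * Y c k := by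
    intro c σ hσ k
    have hσ2 : σ ^ 2 = 1 := by rcases hσ with rfl | rfl <;> norm_num
    have habsσ : |σ| = 1 := by rcases hσ with rfl | rfl <;> norm_num
    have hx : |σ * lam * Y c k| ≤ 1 := by
      rw [abs_mul, abs_mul, habsσ, abs_of_pos hlam0, abs_of_nonneg (hY0 c k), one_mul]
      have : lam * Y c k ≤ lam * β := mul_le_mul_of_nonneg_left (hYβ c k) hlam0.le
      linarith
    have h1 := Real.abs_exp_sub_one_sub_id_le hx
    have h2 := (abs_le.mp h1).2
    have h3 : (σ * lam * Y c k) ^ 2 ≤ lam ^ 2 * β * Y c k := by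
      have : (σ * lam * Y c k) ^ 2 = σ ^ 2 * (lam ^ 2 * (Y c k * Y c k)) := by ring
      rw [this, hσ2, one_mul, mul_assoc]
      exact mul_le_mul_of_nonneg_left
        (mul_le_mul_of_nonneg_right (hYβ c k) (hY0 c k)) (sq_nonneg _)
    linarith
  have hmoment : ∀ c (σ : ℝ), (σ = 1 ∨ σ = -1) →
      (∑ k, pr k * Real.exp (σ * lam * Y c k)) ^ N ≤ Real.exp (σ * lam + lam ^ 2 * β) := by
    intro c σ hσ
    have h1 : ∑ k, pr k * Real.exp (σ * lam * Y c k) ≤ 1 + (σ * lam + lam ^ 2 * β) / N := by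
      calc ∑ k, pr k * Real.exp (σ * lam * Y c k)
          ≤ ∑ k, pr k * (1 + σ * lam * Y c k + lam ^ 2 * β * Y c k) :=
            Finset.sum_le_sum (fun k _ => mul_le_mul_of_nonneg_left (hexp_le c σ hσ k) (hpr0 k))
        _ = (∑ k, pr k) + (σ * lam + lam ^ 2 * β) * ∑ k, pr k * Y c k := by
            rw [Finset.mul_sum, ← Finset.sum_add_distrib]
            apply Finset.sum_congr rfl
            intro k _
            ring
        _ = 1 + (σ * lam + lam ^ 2 * β) / N := by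
            rw [hpr1, hmean]
            ring
    have h0 : 0 ≤ ∑ k, pr k * Real.exp (σ * lam * Y c k) :=
      Finset.sum_nonneg (fun k _ => mul_nonneg (hpr0 k) (Real.exp_pos _).le)
    have h2 : 1 + (σ * lam + lam ^ 2 * β) / N ≤ Real.exp ((σ * lam + lam ^ 2 * β) / N) := by
      have := Real.add_one_le_exp ((σ * lam + lam ^ 2 * β) / N)
      linarith
    calc (∑ k, pr k * Real.exp (σ * lam * Y c k)) ^ N
        ≤ (Real.exp ((σ * lam + lam ^ 2 * β) / N)) ^ N :=
          pow_le_pow_left₀ h0 (h1.trans h2) N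
      _ = Real.exp (σ * lam + lam ^ 2 * β) := by
          rw [← Real.exp_nat_mul]
          congr 1
          field_simp
  -- the exponential test function
  let Φ : C → ℝ → (Fin N → ι) → ℝ := fun c σ t =>
    Real.exp (σ * lam * (∑ s, Y c (t s) - 1) - lam * ε)
  have hΦ_eq : ∀ c σ t, W t * Φ c σ t =
      Real.exp (-(σ * lam) - lam * ε) * ∏ s, (pr (t s) * Real.exp (σ * lam * Y c (t s))) := by
    intro c σ t
    have h1 : Φ c σ t = Real.exp (-(σ * lam) - lam * ε) * ∏ s, Real.exp (σ * lam * Y c (t s)) := by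
      rw [← Real.exp_sum, ← Real.exp_add]
      show Real.exp _ = Real.exp _
      congr 1
      rw [← Finset.mul_sum]
      ring
    rw [h1, Finset.prod_mul_distrib]
    show (∏ s, pr (t s)) * _ = _
    ring
  have hΦ_sum : ∀ c σ, (σ = 1 ∨ σ = -1) →
      ∑ t, W t * Φ c σ t ≤ Real.exp (-(ε ^ 2 / (4 * β))) := by
    intro c σ hσ
    have h1 : ∑ t, W t * Φ c σ t = Real.exp (-(σ * lam) - lam * ε) *
        (∑ k, pr k * Real.exp (σ * lam * Y c k)) ^ N := by
      rw [← hprod, Finset.mul_sum]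
      exact Finset.sum_congr rfl (fun t _ => hΦ_eq c σ t)
    rw [h1]
    calc Real.exp (-(σ * lam) - lam * ε) * (∑ k, pr k * Real.exp (σ * lam * Y c k)) ^ N
        ≤ Real.exp (-(σ * lam) - lam * ε) * Real.exp (σ * lam + lam ^ 2 * β) :=
          mul_le_mul_of_nonneg_left (hmoment c σ hσ) (Real.exp_pos _).le
      _ = Real.exp (-(σ * lam) - lam * ε + (σ * lam + lam ^ 2 * β)) := (Real.exp_add _ _).symm
      _ = Real.exp (-(ε ^ 2 / (4 * β))) := by
          congr 1
          have : lam ^ 2 * β = lam * (ε / 2) := by rw [← hlamβ]; ring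
          rw [this, hlam]
          field_simp
          ring
  -- total test function
  let Ψ : (Fin N → ι) → ℝ := fun t => ∑ c, (Φ c 1 t + Φ c (-1) t)
  have hΨ0 : ∀ t, 0 ≤ Ψ t := fun t => Finset.sum_nonneg
    (fun c _ => add_nonneg (Real.exp_pos _).le (Real.exp_pos _).le)
  have hΨsum : ∑ t, W t * Ψ t < 1 := by
    have h1 : ∑ t, W t * Ψ t = ∑ c, (∑ t, W t * Φ c 1 t + ∑ t, W t * Φ c (-1) t) := by
      simp only [Ψ, Finset.mul_sum, mul_add, ← Finset.sum_add_distrib]
      rw [Finset.sum_comm]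
    rw [h1]
    have h2 : ∑ c : C, (∑ t, W t * Φ c 1 t + ∑ t, W t * Φ c (-1) t) ≤
        ∑ _c : C, (Real.exp (-(ε ^ 2 / (4 * β))) + Real.exp (-(ε ^ 2 / (4 * β)))) :=
      Finset.sum_le_sum (fun c _ => add_le_add (hΦ_sum c 1 (Or.inl rfl)) (hΦ_sum c (-1) (Or.inr rfl)))
    have h3 : ∑ _c : C, (Real.exp (-(ε ^ 2 / (4 * β))) + Real.exp (-(ε ^ 2 / (4 * β)))) =
        2 * (Fintype.card C : ℝ) * Real.exp (-(ε ^ 2 / (4 * β))) := by
      simp [Finset.card_univ]
      ring
    linarith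
  -- some tuple has small test value
  obtain ⟨t, htlt⟩ : ∃ t, Ψ t < 1 := by
    by_contra hcon
    have hge : ∀ t, 1 ≤ Ψ t := fun t => not_lt.mp (fun h => hcon ⟨t, h⟩)
    have : ∑ t, W t * 1 ≤ ∑ t, W t * Ψ t :=
      Finset.sum_le_sum (fun t _ => mul_le_mul_of_nonneg_left (hge t) (hW0 t))
    simp only [mul_one, hW1] at this
    linarith
  refine ⟨t, fun c => ?_⟩
  -- both exponentials are below one
  have hsingle : Φ c 1 t + Φ c (-1) t ≤ Ψ t :=
    Finset.single_le_sum (f := fun c => Φ c 1 t + Φ c (-1) t)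
      (fun c _ => add_nonneg (Real.exp_pos _).le (Real.exp_pos _).le) (Finset.mem_univ c)
  have hup : Φ c 1 t < 1 := by
    have : 0 < Φ c (-1) t := Real.exp_pos _
    linarith
  have hdn : Φ c (-1) t < 1 := by
    have : 0 < Φ c 1 t := Real.exp_pos _
    linarith
  have hup' : 1 * lam * (∑ s, Y c (t s) - 1) - lam * ε < 0 := Real.exp_lt_one_iff.mp hup
  have hdn' : -1 * lam * (∑ s, Y c (t s) - 1) - lam * ε < 0 := Real.exp_lt_one_iff.mp hdn
  rw [abs_le]
  constructor
  · by_contra h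
    push Not at h
    have : lam * (∑ s, Y c (t s) - 1 + ε) < 0 := mul_neg_of_pos_of_neg hlam0 (by linarith)
    nlinarith
  · by_contra h
    push Not at h
    have : 0 < lam * (∑ s, Y c (t s) - 1 - ε) := mul_pos hlam0 (by linarith)
    nlinarith

end P249
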